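import Vale.Agent.Lib.P072.Permanence

/-!
P072: the permanence conjecture holds for the weakly reversible networks in which every
reaction changes the amount of a single species and the return paths required by weak
reversibility can be taken among the reactions changing that same species (for example, all
reversible networks whose reactions each change a single species), with any number of species
and of linkage classes.
-/

namespace Vale.Agent.Results.P072.LinePermanence

open Vale.Agent.Lib.P072

/-- (1) Every network of the class `LineWR` with positive rate constants is weakly reversible
and its mass-action system is permanent on the positive stoichiometric class of every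
positive `c`.  (2) Every reversible network in which each reaction changes the amount of a
single species belongs to the class `LineWR`. -/
theorem result :
    (∀ (d : ℕ) (N : Net d), N.Valid → N.LineWR →
      N.WeaklyReversible ∧ ∀ c : Fin d → ℝ, (∀ i, 0 < c i) → N.PermanentOn c) ∧
    (∀ (d : ℕ) (N : Net d), (∀ r ∈ N.R, (r.2, r.1) ∈ N.R) →
      (∀ r ∈ N.R, ∃ i, ∀ j, j ≠ i → r.2 j = r.1 j) → N.LineWR) :=
  ⟨fun _ _ hV hN => ⟨lineWR_weaklyReversible hN, fun c hc => lineWR_permanent hV hN c hc⟩,
    fun _ _ hrev hone => reversible_lineWR hrev hone⟩

end Vale.Agent.Results.P072.LinePermanence
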